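import Vale.Agent.P275TW.Stab

/-!
# P275, block TW: the twists on the moduli space
-/

set_option linter.all false

open scoped Topology Matrix.Norms.Operator ContDiff ComplexConjugate Polynomial
open Set Filter Metric Matrix
open Vale.Agent.P281Z.Hm Vale.Agent.P275GC Vale.Agent.P275GC.At Vale.Agent.P275MO
open Vale.Agent.P275NA (Fm Cy Mn db dz fc)
open Vale.Agent.P275PG Vale.Agent.P275MB

noncomputable section

namespace Vale.Agent.P275TW

variable {C : Type} [TopologicalSpace C] {n : ℕ} {A : At C} {l : Cy A ℂ} {i j : Fin A.N} {w : ℂ}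
  {x : C} {r r' : ℝ} {h1 : 1 < r} {h2 : r ≤ A.R}

/-! ### families -/

section fam

variable {T : Type} [TopologicalSpace T] {V : Set T} {Z : T → Dat C A.N n} {B F : T → Fm A (Mn n)}

theorem ct_inv {X : Type} [TopologicalSpace X] {s : Set X} {g : X → Mn n} (hg : ContinuousOn g s)
    (h : ∀ x ∈ s, (g x).det ≠ 0) : ContinuousOn (fun x => (g x)⁻¹) s := fun x hx =>
  (an_inv (𝕜 := ℝ) (f := id) analyticAt_id (h x hx)).continuousAt.comp_continuousWithinAt (hg x hx)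

theorem fam_tw [T2Space C] (f : FamOn A l Z V) (h0 : ∀ t ∈ V, (Z t).lam = 0)
    (b : ∀ t ∈ V, Bf A (Z t) (B t)) (m : ∀ t ∈ V, Frm A (B t) (F t))
    (c : ∀ i, ContinuousOn (fun p : T × ℂ => F p.1 i p.2) (V ×ˢ ball 0 A.R)) :
    FamOn A l (fun t => twz A (Z t) (F t)) V :=
  have c' : ∀ i, ContinuousOn (fun p : T × ℂ => (F p.1 i p.2)⁻¹) (V ×ˢ ball 0 A.R) := fun i =>
    ct_inv (c i) fun p a => Frm.ne (m _ a.1) a.2 i
  { good := fun t a => good_tw (f.good t a) (h0 t a) (b t a) (m t a)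
    lam := continuousOn_const
    x := f.x
    R := f.R
    g := fun i j => (((c' i).mono fun _ a => ⟨a.1, a.2.1⟩).mul (f.g i j)).mul
      ((c j).comp (f := fun p : T × ℂ => (p.1, A.tr i j p.2)) (continuousOn_fst.prodMk
        ((A.hol i j).continuousOn.comp continuousOn_snd fun _ a => a.2))
        fun _ a => ⟨a.1, tr_ball a.2⟩)
    a := fun i => ((((c' i).mono fun _ a => ⟨a.1, a.2.1⟩).mul (f.a i)).mul
      ((c i).mono fun _ a => ⟨a.1, a.2.1⟩)).congr fun p a => twz_a (f.good _ a.1) (m _ a.1) a.2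
    σ := fun i => ((c' i).comp (f := fun t => (t, A.e i (Z t).x)) (continuousOn_id.prodMk
      ((A.e i).continuousOn.comp (f.x.mono fun _ a => a.1) fun _ a => a.2))
      fun _ a => ⟨a.1, map_src a.2⟩).mul (f.σ i) }

theorem ex_frm {t : T} (ht : t ∈ V) (b : ∀ s ∈ V, Bf A (Z s) (B s))
    (c : ∀ i, ContinuousOn (fun p : T × ℂ => B p.1 i p.2) (V ×ˢ ball 0 A.R)) (h1 : 1 < r)
    (h2 : r < A.R) : ∃ V' ∈ 𝓝[V] t, ∃ F : T → Fm A (Mn n), V' ⊆ V ∧
      (∀ i, ContinuousOn (fun p : T × ℂ => F p.1 i p.2) (V' ×ˢ ball 0 r)) ∧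
      ∀ s ∈ V', Frm (A.res r h1 h2.le) (B s) (F s) := by
  choose W hW F h3 h4 _ h5 using fun i => P275IN.fint n T (fun s => B s i) V t r A.R h2 ht
    (fun s a => (b s a).sm i) (fun s a => (b s a).tr i) (c i)
  exact ⟨V ∩ ⋂ i, W i, inter_mem self_mem_nhdsWithin (iInter_mem.2 hW), fun s i => F i s,
    inter_subset_left, fun i => (h4 i).mono fun _ a => ⟨mem_iInter.1 a.1.2 i, a.2⟩, fun s a =>
    ⟨fun i => (h5 i s (mem_iInter.1 a.2 i)).1, fun i w p => ((h5 i s (mem_iInter.1 a.2 i)).2 w p).1,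
      fun i w p => ((h5 i s (mem_iInter.1 a.2 i)).2 w p).2⟩⟩

theorem ct_Bq [T2Space C] {Q : Fin n → Fm A ℂ} (hQ : Q ∈ Twd A n x) (f : FamOn A l Z V)
    (hx : ∀ t ∈ V, (Z t).x = x) (i : Fin A.N) :
    ContinuousOn (fun p : T × ℂ => Bq Q (Z p.1).a i p.2) (V ×ˢ ball 0 A.R) := by
  intro p hp
  by_cases e : (A.e i).symm p.2 = x
  · refine (continuousAt_const.congr (f := fun _ => 0) ?_).continuousWithinAt
    exact (continuousAt_snd.eventually (Bq_ev hQ hp.2 e)).mono fun _ a => (a _).symm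
  · have a : ContinuousWithinAt (fun p : T × ℂ => (Z p.1).a i p.2) (V ×ˢ ball 0 A.R) p := by
      refine (f.a i p ⟨hp.1, hp.2, by rwa [hx _ hp.1]⟩).mono_of_mem_nhdsWithin ?_
      filter_upwards [self_mem_nhdsWithin, nhdsWithin_le_nhds (continuousAt_snd.eventually
        ((off_open x i).mem_nhds (show p.2 ∈ off A x i from ⟨hp.2, e⟩)))] with q a b
      exact ⟨a.1, by rwa [hx _ a.1]⟩
    have b : ContinuousWithinAt (fun p : T × ℂ => ∑ k, Q k i p.2 • (Z p.1).a i p.2 ^ (k : ℕ))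
        (V ×ˢ ball 0 A.R) p := tendsto_finset_sum _ fun k _ =>
      (((hQ k).1.ct.at hp.2 i).comp continuousAt_snd).continuousWithinAt.smul (a.pow k)
    exact (tfL n).continuous.continuousAt.comp_continuousWithinAt b

/-- the twisted family -/
theorem ex_fam [T2Space C] {m : ℕ} (Q : Fin m → Twd A n x) {c : T → Fin m → ℂ} {t : T}
    (f : FamOn (A.res r h1 h2) l Z V) (hc : ContinuousOn c V) (ht : t ∈ V)
    (h0 : ∀ s ∈ V, (Z s).lam = 0 ∧ (Z s).x = x) (h1' : 1 < r') (h : r' < r) :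
    ∃ V' ∈ 𝓝[V] t, ∃ F : T → Fm A (Mn n), V' ⊆ V ∧
      (∀ i, ContinuousOn (fun p : T × ℂ => F p.1 i p.2) (V' ×ˢ ball 0 r')) ∧
      (∀ s ∈ V', Frm (A.res r' h1' (h.le.trans h2)) (Bq (∑ j, c s j • Q j).1 (Z s).a) (F s)) ∧
      FamOn (A.res r' h1' (h.le.trans h2)) l (fun s => twz A (Z s) (F s)) V' := by
  obtain ⟨V', a, F, b, d, e⟩ := ex_frm (A := A.res r h1 h2) (Z := Z)
    (B := fun s => Bq (∑ j, c s j • Q j).1 (Z s).a) ht
    (fun s p => bq_bf (twd_res ((h0 s p).2 ▸ (∑ j, c s j • Q j).2)) (f.good s p) (h0 s p).1)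
    (fun i => (continuousOn_finset_sum _ fun j _ =>
      (((continuous_apply j).comp_continuousOn hc).comp continuousOn_fst fun _ a => a.1).smul
      (ct_Bq (twd_res (Q j).2) f (fun s p => (h0 s p).2) i)).congr fun p _ => Bq_sum _ Q _ i _)
    h1' h
  have e' : ∀ s ∈ V', Frm (A.res r' h1' (h.le.trans h2)) (Bq (∑ j, c s j • Q j).1 (Z s).a) (F s) :=
    fun s p => ⟨(e s p).sm, (e s p).det, (e s p).eq⟩
  have f' := FamOn.sub (FamOn.mono f h1' h.le) b
  exact ⟨V', a, F, b, d, e', fam_tw f' (fun s p => (h0 s (b p)).1) (fun s p => bq_bf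
    (twd_res ((h0 s (b p)).2 ▸ (∑ j, c s j • Q j).2)) (f'.good s p) (h0 s (b p)).1) e' d⟩

end fam

/-! ### the twist of a point -/

variable {τ : Ty n} {Q Q' : Twd A n x} {y : M0 A l τ x} {z z' : Ob A l τ} {F F' : Fm A (Mn n)}

theorem rep0 (e : z.pt = y.1) : z.1.lam = 0 ∧ z.1.x = x :=
  ⟨(congrArg Mod.lam e).trans y.2.1, (congrArg Mod.x e).trans y.2.2⟩

theorem ex_one [T2Space C] (Q : Twd A n x) (e : z.pt = y.1) (g : Good (A.res r h1 h2) l z.1)
    (h1' : 1 < r') (h : r' < r) : ∃ F, Frm (A.res r' h1' (h.le.trans h2)) (Bq Q.1 z.1.a) F := by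
  obtain ⟨V, a, F, -, -, b, -⟩ := ex_fam (T := Unit) (fun _ : Fin 1 => Q) (c := fun _ _ => 1)
    (famOn_const g univ) continuousOn_const (mem_univ ()) (fun _ _ => rep0 e) h1' h
  have := b () (mem_of_mem_nhdsWithin (mem_univ _) a)
  rw [Fin.sum_univ_one, one_smul] at this
  exact ⟨_, this⟩

theorem ex_two [T2Space C] (Q : Twd A n x) (e : z.pt = y.1) (g : Good (A.res r h1 h2) l z.1) :
    ∃ (r' : ℝ) (h1' : 1 < r') (h : r' ≤ r) (F : Fm A (Mn n)),
      Frm (A.res r' h1' (h.trans h2)) (Bq Q.1 z.1.a) F := by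
  obtain ⟨r', a, b⟩ := exists_between h1
  exact ⟨r', a, b.le, ex_one Q e g a b⟩

theorem tw_good [T2Space C] (e : z.pt = y.1) (g : Good (A.res r h1 h2) l z.1)
    (f : Frm (A.res r h1 h2) (Bq Q.1 z.1.a) F) : Good (A.res r h1 h2) l (twz A z.1 F) :=
  good_tw g (rep0 e).1 (bq_bf (twd_res ((rep0 e).2 ▸ Q.2)) g (rep0 e).1) f

theorem tw_ob [T2Space C] (e : z.pt = y.1) (g : Good (A.res r h1 h2) l z.1)
    (f : Frm (A.res r h1 h2) (Bq Q.1 z.1.a) F) : IsOb A l τ.q (twz A z.1 F) :=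
  ⟨⟨r, h1, h2, tw_good e g f, stab_tw g (rep0 e).1
    (bq_bf (twd_res ((rep0 e).2 ▸ Q.2)) g (rep0 e).1) f (IsOb.stab z.2 g)⟩, z.2.2⟩

theorem tw_eq [T2Space C] {h1' : 1 < r'} {h2' : r' ≤ A.R} (e : z.pt = y.1) (e' : z'.pt = y.1)
    (g : Good (A.res r h1 h2) l z.1) (g' : Good (A.res r' h1' h2') l z'.1)
    (f : Frm (A.res r h1 h2) (Bq Q.1 z.1.a) F) (f' : Frm (A.res r' h1' h2') (Bq Q.1 z'.1.a) F') :
    Ob.pt ⟨_, tw_ob e g f⟩ = Ob.pt ⟨_, tw_ob e' g' f'⟩ := by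
  have d := lt_min h1 h1'
  have g1 := Good.mono g d (min_le_left _ _)
  have g2 := Good.mono g' d (min_le_right _ _)
  obtain ⟨φ, h, a, b⟩ := (pt_eq_iff' g1 g2).1 (e.trans e'.symm)
  exact Quot.sound ⟨_, d, _, _, h, a, (siso_of (twd_res ((rep0 e).2 ▸ Q.2)) (rep0 e).1 b).iso g1 g2
    (Frm.mono f d (min_le_left _ _)) (Frm.mono f' d (min_le_right _ _))⟩

theorem ex_tw [T2Space C] (Q : Twd A n x) (y : M0 A l τ x) : ∃ y' : M0 A l τ x,
    ∀ (z : Ob A l τ) (r : ℝ) (h1 : 1 < r) (h2 : r ≤ A.R) (F : Fm A (Mn n)) (e : z.pt = y.1)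
      (g : Good (A.res r h1 h2) l z.1) (f : Frm (A.res r h1 h2) (Bq Q.1 z.1.a) F),
      y'.1 = Ob.pt ⟨_, tw_ob e g f⟩ := by
  obtain ⟨z, e⟩ := pt_surj y.1
  obtain ⟨r, h1, h2, g⟩ := Ob.ex z
  obtain ⟨r', a, b, F, f⟩ := ex_two Q e g
  exact ⟨⟨Ob.pt ⟨_, tw_ob e (Good.mono g a b) f⟩, rfl, (rep0 e).2⟩,
    fun z' _ _ _ _ e' g' f' => tw_eq e e' (Good.mono g a b) g' f f'⟩

/-- the twist -/
def twM [T2Space C] (Q : Twd A n x) (y : M0 A l τ x) : M0 A l τ x := (ex_tw Q y).choose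

theorem twM_pt [T2Space C] (e : z.pt = y.1) (g : Good (A.res r h1 h2) l z.1)
    (f : Frm (A.res r h1 h2) (Bq Q.1 z.1.a) F) : (twM Q y).1 = Ob.pt ⟨_, tw_ob e g f⟩ :=
  (ex_tw Q y).choose_spec z r h1 h2 F e g f

theorem twM_zero [T2Space C] (y : M0 A l τ x) : twM 0 y = y := by
  obtain ⟨z, e⟩ := pt_surj y.1
  obtain ⟨r, h1, h2, g⟩ := Ob.ex z
  have f : Frm (A.res r h1 h2) (Bq (0 : Twd A n x).1 z.1.a) fun _ _ => 1 :=
    ⟨fun _ => contDiffOn_const, fun _ _ _ => det_one, fun i w _ => by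
      rw [db, wb_const, zero_add, mul_one]; exact Bq_zero _ _ _⟩
  exact Subtype.ext ((twM_pt e g f).trans (.trans (Quot.sound ⟨r, h1, h2, _, 1, one_mem _,
    iso_aut g (rep0 e).1 f (fun _ _ _ _ => by simp) (fun _ _ _ => by simp) fun _ _ => rfl⟩) e))

theorem twM_add [T2Space C] (Q Q' : Twd A n x) (y : M0 A l τ x) :
    twM (Q + Q') y = twM Q (twM Q' y) := by
  obtain ⟨z, e⟩ := pt_surj y.1
  obtain ⟨r, h1, h2, g⟩ := Ob.ex z
  obtain ⟨r1, a1, b1, F1, f1⟩ := ex_two Q' e g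
  have g1 := Good.mono g a1 b1
  have e1 := (twM_pt e g1 f1).symm
  obtain ⟨r2, a2, b2, F2, f2⟩ := ex_two Q e1 (tw_good e g1 f1)
  have g2 := Good.mono g1 a2 b2
  obtain ⟨r3, a3, b3, F3, f3⟩ := ex_two (Q + Q') e g2
  have g3 := Good.mono g2 a3 b3
  have f1' := Frm.mono f1 a3 (b3.trans b2)
  have f2' := Frm.mono f2 a3 b3
  refine Subtype.ext ((twM_pt e g3 f3).trans (.trans ?_ (twM_pt e1 (tw_good e g3 f1') f2').symm))
  exact Quot.sound ⟨r3, a3, _, _, 1, one_mem _,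
    (siso_add (twd_res ((rep0 e).2 ▸ Q.2)) g3 f1').iso g3 (tw_good e g3 f1') f3 f2'⟩

theorem twM_chr [T2Space C] (Q : Twd A n x) (y : M0 A l τ x) (P : Fm A ℂ[X]) (h : Chr y.1 P) :
    Chr (twM Q y).1 P := by
  intro z r h1 h2 e g i w hw
  obtain ⟨r', a, b⟩ := exists_between (max_lt h1 (mem_ball_zero_iff.1 hw.1))
  have a1 := (le_max_left _ _).trans_lt a
  obtain ⟨F, f⟩ := ex_one (-Q) e g a1 b
  have g1 := Good.mono g a1 b.le
  have e1 := twM_pt e g1 f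
  rw [← twM_add, neg_add_cancel, twM_zero] at e1
  have w1 : w ∈ off (A.res r' a1 (b.le.trans h2)) z.1.x i :=
    ⟨mem_ball_zero_iff.2 ((le_max_right _ _).trans_lt a), hw.2⟩
  rw [← h _ r' a1 _ e1.symm (tw_good e g1 f) i w w1]
  refine .trans ?_ (congrArg Matrix.charpoly (twz_a g1 f w1)).symm
  rw [charpoly_mul_comm, mul_nonsing_inv_cancel_left _ _ (Frm.ne f w1.1 i).isUnit]

theorem twM_η [T2Space C] (Q : Twd A n x) (y : M0 A l τ x) : (twM Q y).1.η = y.1.η := by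
  obtain ⟨z, e⟩ := pt_surj y.1
  obtain ⟨r, h1, h2, g⟩ := Ob.ex z
  obtain ⟨r1, a1, b1, F1, f1⟩ := ex_two Q e g
  rw [twM_pt e (Good.mono g a1 b1) f1, ← e]
  exact (η_pt _).trans (η_pt z).symm

theorem twM_cont [T2Space C] (k : KUR n A l) {m : ℕ} (Q : Fin m → Twd A n x) :
    Continuous fun p : (Fin m → ℝ) × M0 A l τ x => twM (∑ j, (p.1 j : ℂ) • Q j) p.2 := by
  classical
  refine continuous_induced_rng.2 (continuous_iff_continuousAt.2 fun p => ?_)
  obtain ⟨K, hK⟩ := k τ p.2.1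
  let V : Set ((Fin m → ℝ) × M0 A l τ x) := {q | q.2.1 ∈ K.e.source}
  have cv : Continuous fun q : (Fin m → ℝ) × M0 A l τ x => q.2.1 :=
    continuous_subtype_val.comp continuous_snd
  have hV : V ∈ 𝓝 p := (K.e.open_source.preimage cv).mem_nhds hK
  have e : ∀ q (a : q ∈ V), Ob.pt ⟨K.F (K.e q.2.1), K.ob _ (K.e.map_source a)⟩ = q.2.1 :=
    fun q a => (K.symm _ (K.e.map_source a)).symm.trans (K.e.left_inv a)
  have f : FamOn (A.res K.r K.h1 K.h2) l (fun q : (Fin m → ℝ) × M0 A l τ x => K.F (K.e q.2.1)) V :=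
    FamOn.comp K.fam.toFamOn (K.e.continuousOn.comp cv.continuousOn fun _ a => a)
      fun _ a => K.e.map_source a
  obtain ⟨r', a, b⟩ := exists_between K.h1
  obtain ⟨V', c, F, d, -, f1, f2⟩ := ex_fam Q (c := fun q j => (q.1 j : ℂ)) f
    (continuous_pi fun j => Complex.continuous_ofReal.comp
      ((continuous_apply j).comp continuous_fst)).continuousOn (mem_of_mem_nhds hV)
    (fun q a => rep0 (e q a)) a b
  rw [nhdsWithin_eq_nhds.2 hV] at c
  have g := fun q (u : q ∈ V') => Good.mono (f.good q (d u)) a b.le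
  let G : (Fin m → ℝ) × M0 A l τ x → Ob A l τ := fun q =>
    if u : q ∈ V' then ⟨_, tw_ob (e q (d u)) (g q u) (f1 q u)⟩ else q.2.1.rep
  have hG' : ∀ q (u : q ∈ V'), G q = ⟨_, tw_ob (e q (d u)) (g q u) (f1 q u)⟩ := fun q u => dif_pos u
  have hG : ∀ q ∈ V', (G q).1 = twz A (K.F (K.e q.2.1)) (F q) := fun q u =>
    congrArg Subtype.val (hG' q u)
  have f3 : FamOn (A.res r' a (b.le.trans K.h2)) l (fun q => (G q).1) V' :=
    ⟨fun q u => hG q u ▸ f2.good q u, f2.lam.congr fun q u => congrArg Dat.lam (hG q u),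
      f2.x.congr fun q u => congrArg Dat.x (hG q u), f2.R.congr fun q u => congrArg Dat.R (hG q u),
      fun i j => (f2.g i j).congr fun q u => by simp only [hG _ u.1],
      fun i => ContinuousOn.congr ((f2.a i).mono fun q u => ⟨u.1, hG _ u.1 ▸ u.2⟩) fun q u => by
        simp only [hG _ u.1],
      fun i => ContinuousOn.congr ((f2.σ i).mono fun q u => ⟨u.1, hG _ u.1 ▸ u.2⟩) fun q u => by
        simp only [hG _ u.1]⟩
  exact (FamAt.continuousAt (F := G) ⟨r', a, _, V', c, f3⟩).congr (eventually_of_mem c fun q u =>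
    (congrArg Ob.pt (hG' q u)).trans (twM_pt (e q (d u)) (g q u) (f1 q u)).symm)

theorem isTw [T2Space C] (k : KUR n A l) : IsTw (twM (A := A) (l := l) (τ := τ) (x := x)) where
  spec _ _ _ _ _ _ _ e g f := ⟨tw_good e g f, _, twM_pt e g f⟩
  fam m Q z r r' h1 h h2 s h0 hx g := by
    obtain ⟨V, a, F, -, b⟩ := ex_fam Q (c := fun (q : Fin m → ℝ) j => (q j : ℂ))
      (famOn_const g univ) (continuous_pi fun j => Complex.continuous_ofReal.comp
        (continuous_apply j)).continuousOn (mem_univ s) (fun _ _ => ⟨h0, hx⟩) h1 h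
    exact ⟨V, nhdsWithin_univ s ▸ a, F, b⟩
  cont _ Q := twM_cont k Q
  zero := twM_zero
  add := twM_add
  chr := twM_chr
  η := twM_η

/-- **TW** -/
theorem tw (A : At C) (l : Cy A ℂ) (n : ℕ) : TW (n := n) A l := fun _ s k _ _ =>
  have := s.t2
  ⟨twM, isTw k⟩

/-- the inverse of an automorphism is a frame -/
theorem Lg.frm {z : Dat C A.N n} {B G : Fm A (Mn n)} (h : Lg A z B G) :
    Frm A B fun i w => (G i w)⁻¹ :=
  have d : ∀ i, ∀ w ∈ ball (0 : ℂ) A.R, (G i w).det ≠ 0 := fun i w a => by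
    rw [h.det i w a]; exact one_ne_zero
  ⟨fun i w a => (P275HK.cd_inv (h.sm.at a i) (d i w a)).contDiffWithinAt, fun i w a => by
    rw [det_nonsing_inv, h.det i w a, Ring.inverse_one], fun i w a => by
    rw [db, wb_minv ((h.sm.at a i).differentiableAt (by simp)) (d i w a),
      show wb 1 (G i) w = _ from h.eq i w a, nonsing_inv_mul_cancel_left _ _ (d i w a).isUnit,
      neg_add_cancel]⟩

theorem inv_swap {G G' g : Mn n} (d : G.det = 1) (d' : G'.det = 1) (e : G * g = g * G') :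
    G⁻¹ * g = g * G'⁻¹ := by
  have u : IsUnit G.det := d ▸ isUnit_one
  have u' : IsUnit G'.det := d' ▸ isUnit_one
  rw [← mul_nonsing_inv_cancel_right G' (G⁻¹ * g) u', mul_assoc G⁻¹, ← e,
    nonsing_inv_mul_cancel_left _ _ u]

/-- **PER** -/
theorem per (A : At C) (l : Cy A ℂ) (n : ℕ) : PER (n := n) A l := by
  intro τ x tw t Q y z r h1 h2 G e g h
  obtain ⟨-, o, a⟩ := t.spec Q y z r h1 h2 _ e g (Lg.frm h)
  refine Subtype.ext (a.trans (.trans ?_ e))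
  exact Quot.sound ⟨r, h1, h2, _, 1, one_mem _, iso_aut g (rep0 e).1 (Lg.frm h)
    (fun i j w a => inv_swap (h.det i w a.1) (h.det j _ (tr_ball a)) (h.tr i j w a))
    (fun i w a => inv_swap (h.det i w a) (h.det i w a) (h.com i w a))
    fun i a => by rw [(h.one i a).self_of_nhds, inv_one]⟩

end Vale.Agent.P275TW
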