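import Mathlib.LinearAlgebra.Matrix.Charpoly.Eigs
import Mathlib.LinearAlgebra.Matrix.Charpoly.Minpoly
import Mathlib.Analysis.Complex.Polynomial.Basic
import Mathlib.RingTheory.Coprime.Lemmas
import Mathlib.Algebra.Polynomial.RingDivision

/-!
# P275, block TW: functions of a matrix which are constant on the generalised eigenspaces
-/

open Polynomial Matrix

noncomputable section

namespace Vale.Agent.P275TW

variable {n : ℕ} {θ θ' φ : Matrix (Fin n) (Fin n) ℂ} {f g : ℂ → ℂ} {p q q' : ℂ[X]}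

/-- `q` agrees with the constant `f y` to the order `n` at every root `y` of `p` -/
def Her (n : ℕ) (p : ℂ[X]) (f : ℂ → ℂ) (q : ℂ[X]) : Prop :=
  ∀ y, p.IsRoot y → (X - C y) ^ n ∣ q - C (f y)

/-- the matrix which acts by `f y` on the generalised eigenspace of `y` -/
def fcl (f : ℂ → ℂ) (θ : Matrix (Fin n) (Fin n) ℂ) : Matrix (Fin n) (Fin n) ℂ :=
  aeval θ (Classical.epsilon (Her n θ.charpoly f))

/-- the interpolating idempotents -/
def idp (n : ℕ) {J : Type} [Fintype J] [DecidableEq J] (y : J → ℂ) (j : J) : ℂ[X] :=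
  1 - (1 - (∏ k ∈ Finset.univ.erase j, C (y j - y k)⁻¹ * (X - C (y k))) ^ n) ^ n

theorem idp_self {J : Type} [Fintype J] [DecidableEq J] {y : J → ℂ} (hy : Function.Injective y)
    (j : J) : (X - C (y j)) ^ n ∣ idp n y j - 1 := by
  rw [idp, sub_sub_cancel_left, dvd_neg]
  refine pow_dvd_pow_of_dvd (dvd_iff_isRoot.2 ?_) n
  have : ∏ k ∈ Finset.univ.erase j, (y j - y k)⁻¹ * (y j - y k) = 1 :=
    Finset.prod_eq_one fun k hk => inv_mul_cancel₀ (sub_ne_zero.2 fun e =>
      Finset.ne_of_mem_erase hk (hy e).symm)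
  simp [eval_prod, this]

theorem idp_ne {J : Type} [Fintype J] [DecidableEq J] (y : J → ℂ) {j k : J} (h : k ≠ j) :
    (X - C (y k)) ^ n ∣ idp n y j := by
  refine (pow_dvd_pow_of_dvd ?_ n).trans
    ((dvd_of_eq (sub_sub_cancel 1 _).symm).trans (one_sub_dvd_one_sub_pow _ n))
  exact (dvd_mul_left _ _).trans (Finset.dvd_prod_of_mem
    (fun k => C (y j - y k)⁻¹ * (X - C (y k))) (Finset.mem_erase.2 ⟨h, Finset.mem_univ _⟩))

theorem her_sum {J : Type} [Fintype J] [DecidableEq J] {y : J → ℂ} (hy : Function.Injective y)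
    (h : ∀ t, p.IsRoot t → ∃ j, y j = t) (f : ℂ → ℂ) :
    Her n p f (∑ j, C (f (y j)) * idp n y j) := by
  intro t ht
  obtain ⟨k, rfl⟩ := h t ht
  rw [← Finset.add_sum_erase _ _ (Finset.mem_univ k), add_sub_right_comm, ← mul_sub_one]
  exact dvd_add ((idp_self hy k).mul_left _) (Finset.dvd_sum fun j hj =>
    (idp_ne y (Finset.ne_of_mem_erase hj).symm).mul_left _)

theorem ex_her (n : ℕ) (hp : p ≠ 0) (f : ℂ → ℂ) : ∃ q, Her n p f q := by
  classical
  exact ⟨_, her_sum (y := fun j : p.roots.toFinset => (j : ℂ)) Subtype.val_injective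
    (fun t ht => ⟨⟨t, Multiset.mem_toFinset.2 ((mem_roots hp).2 ht)⟩, rfl⟩) f⟩

theorem cp_ne (θ : Matrix (Fin n) (Fin n) ℂ) : θ.charpoly ≠ 0 := θ.charpoly_monic.ne_zero

theorem cp_dvd (h : ∀ y, θ.charpoly.IsRoot y → (X - C y) ^ n ∣ q) : θ.charpoly ∣ q := by
  classical
  rw [← prod_multiset_X_sub_C_of_monic_of_roots_card_eq θ.charpoly_monic
    (IsAlgClosed.card_roots_eq_natDegree), prod_multiset_root_eq_finset_root]
  refine Finset.prod_dvd_of_coprime (fun a _ b _ hab => ?_) fun a ha => ?_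
  · exact ((pairwise_coprime_X_sub_C Function.injective_id) hab).pow
  · refine (pow_dvd_pow _ ?_).trans (h a ((mem_roots (cp_ne θ)).1 (Multiset.mem_toFinset.1 ha)))
    rw [← count_roots]
    exact (Multiset.count_le_card _ _).trans ((card_roots' _).trans (by simp))

theorem her_uniq (h : Her n θ.charpoly f q) (h' : Her n θ.charpoly f q') :
    aeval θ q = aeval θ q' := by
  obtain ⟨r, hr⟩ : θ.charpoly ∣ q - q' := cp_dvd fun y hy => by
    simpa using dvd_sub (h y hy) (h' y hy)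
  rw [← sub_eq_zero, ← map_sub, hr, map_mul, aeval_self_charpoly, zero_mul]

theorem her_eps (θ : Matrix (Fin n) (Fin n) ℂ) (f : ℂ → ℂ) :
    Her n θ.charpoly f (Classical.epsilon (Her n θ.charpoly f)) :=
  Classical.epsilon_spec (ex_her n (cp_ne θ) f)

theorem fcl_eq (h : Her n θ.charpoly f q) : fcl f θ = aeval θ q := her_uniq (her_eps θ f) h

theorem fcl_congr (h : ∀ y, θ.charpoly.IsRoot y → f y = g y) : fcl f θ = fcl g θ :=
  fcl_eq fun y hy => h y hy ▸ her_eps θ g y hy

theorem fcl_const (c : ℂ) (θ : Matrix (Fin n) (Fin n) ℂ) : fcl (fun _ => c) θ = c • 1 := by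
  rw [fcl_eq (q := C c) fun y _ => by simp, aeval_C, Algebra.algebraMap_eq_smul_one]

theorem fcl_zero (θ : Matrix (Fin n) (Fin n) ℂ) : fcl 0 θ = 0 :=
  (fcl_const 0 θ).trans (zero_smul _ _)

theorem fcl_one (θ : Matrix (Fin n) (Fin n) ℂ) : fcl 1 θ = 1 :=
  (fcl_const 1 θ).trans (one_smul _ _)

theorem fcl_add (f g : ℂ → ℂ) (θ : Matrix (Fin n) (Fin n) ℂ) :
    fcl (f + g) θ = fcl f θ + fcl g θ := by
  rw [fcl_eq (q := _ + _) fun y hy => ?_, map_add]; · rfl
  have := dvd_add (her_eps θ f y hy) (her_eps θ g y hy)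
  rwa [sub_add_sub_comm, ← C_add] at this

theorem fcl_mul (f g : ℂ → ℂ) (θ : Matrix (Fin n) (Fin n) ℂ) :
    fcl (f * g) θ = fcl f θ * fcl g θ := by
  rw [fcl_eq (q := _ * _) fun y hy => ?_, map_mul]; · rfl
  have := dvd_add ((her_eps θ f y hy).mul_right (Classical.epsilon (Her n θ.charpoly g)))
    ((her_eps θ g y hy).mul_left (C (f y)))
  rwa [sub_mul, mul_sub, sub_add_sub_cancel, ← C_mul] at this

theorem fcl_smul (c : ℂ) (f : ℂ → ℂ) (θ : Matrix (Fin n) (Fin n) ℂ) :
    fcl (c • f) θ = c • fcl f θ := by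
  rw [show c • f = (fun _ => c) * f from rfl, fcl_mul, fcl_const, smul_mul_assoc, one_mul]

theorem fcl_comm (f g : ℂ → ℂ) (θ : Matrix (Fin n) (Fin n) ℂ) :
    fcl f θ * fcl g θ = fcl g θ * fcl f θ := by rw [← fcl_mul, mul_comm, fcl_mul]

theorem fcl_mem (f : ℂ → ℂ) (θ : Matrix (Fin n) (Fin n) ℂ) : fcl f θ ∈ Algebra.adjoin ℂ {θ} := by
  rw [Algebra.adjoin_singleton_eq_range_aeval]
  exact ⟨_, rfl⟩

theorem aeval_nat (h : φ * θ = θ' * φ) (q : ℂ[X]) : φ * aeval θ q = aeval θ' q * φ := by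
  induction q using Polynomial.induction_on with
  | C a => simp [Algebra.algebraMap_eq_smul_one]
  | add p q a b => simp only [map_add, mul_add, add_mul, a, b]
  | monomial k a b =>
    rw [pow_succ, ← mul_assoc, map_mul, map_mul _ _ X, aeval_X, aeval_X, ← mul_assoc, b,
      mul_assoc, h, mul_assoc]

theorem cp_conj (h : φ * θ = θ' * φ) (h0 : φ.det ≠ 0) : θ'.charpoly = θ.charpoly := by
  have : θ' = φ * (θ * φ⁻¹) := by
    rw [← mul_assoc, h, mul_nonsing_inv_cancel_right _ _ h0.isUnit]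
  rw [this, charpoly_mul_comm, mul_assoc, nonsing_inv_mul _ h0.isUnit, mul_one]

theorem fcl_nat (h : φ * θ = θ' * φ) (h0 : φ.det ≠ 0) (f : ℂ → ℂ) :
    φ * fcl f θ = fcl f θ' * φ := by
  rw [fcl, fcl, cp_conj h h0, aeval_nat h]

theorem fcl_self (f : ℂ → ℂ) (θ : Matrix (Fin n) (Fin n) ℂ) : θ * fcl f θ = fcl f θ * θ :=
  aeval_nat rfl _

theorem det_sub (θ : Matrix (Fin n) (Fin n) ℂ) (r : ℂ) :
    (θ - r • 1).det = (θ.charpoly.roots.map fun y => y - r).prod := by
  have h := prod_multiset_X_sub_C_of_monic_of_roots_card_eq θ.charpoly_monic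
    (IsAlgClosed.card_roots_eq_natDegree)
  have c : θ.charpoly.roots.card = n := by rw [IsAlgClosed.card_roots_eq_natDegree]; simp
  have e := congrArg (eval r) h
  rw [eval_charpoly, eval_multiset_prod, Multiset.map_map] at e
  have e2 := Multiset.prod_map_neg (θ.charpoly.roots.map (eval r ∘ fun a => X - C a))
  rw [Multiset.card_map, c, e, Multiset.map_map] at e2
  rw [← neg_sub, det_neg, Fintype.card_fin, smul_one_eq_diagonal, ← scalar_apply, ← e2]
  simp

theorem det_aeval (θ : Matrix (Fin n) (Fin n) ℂ) (q : ℂ[X]) :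
    (aeval θ q).det = (θ.charpoly.roots.map fun y => q.eval y).prod := by
  have c : θ.charpoly.roots.card = n := by rw [IsAlgClosed.card_roots_eq_natDegree]; simp
  have key : ∀ (s : Multiset ℂ) (a : ℂ), (aeval θ (C a * (s.map fun r => X - C r).prod)).det =
      (θ.charpoly.roots.map fun y => (C a * (s.map fun r => X - C r).prod).eval y).prod := by
    intro s a
    induction s using Multiset.induction_on with
    | empty => simp [Algebra.algebraMap_eq_smul_one, c]
    | cons r s ih =>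
      rw [Multiset.map_cons, Multiset.prod_cons, mul_left_comm, map_mul, det_mul, ih]
      simp only [eval_mul (p := X - C r), Multiset.prod_map_mul]
      simp [Algebra.algebraMap_eq_smul_one, det_sub]
  have := key q.roots q.leadingCoeff
  rwa [C_leadingCoeff_mul_prod_multiset_X_sub_C IsAlgClosed.card_roots_eq_natDegree] at this

theorem roots_aeval (θ : Matrix (Fin n) (Fin n) ℂ) (q : ℂ[X]) :
    (aeval θ q).charpoly.roots = θ.charpoly.roots.map fun y => q.eval y := by
  rw [← roots_multiset_prod_X_sub_C (Multiset.map _ _)]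
  refine congrArg _ (Polynomial.funext fun r => ?_)
  have := det_aeval θ (C r - q)
  rw [map_sub, aeval_C] at this
  rw [eval_charpoly, eval_multiset_prod, Multiset.map_map, Multiset.map_map]
  simpa [Algebra.algebraMap_eq_smul_one, smul_one_eq_diagonal] using this

theorem Her.eval (h : Her n θ.charpoly f q) {y : ℂ} (hy : y ∈ θ.charpoly.roots) :
    q.eval y = f y := by
  have c : θ.charpoly.roots.card = n := by rw [IsAlgClosed.card_roots_eq_natDegree]; simp
  have n0 : n ≠ 0 := fun e => by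
    rw [Multiset.card_eq_zero.1 (c.trans e)] at hy
    exact Multiset.notMem_zero _ hy
  have := dvd_iff_isRoot.1 ((dvd_pow_self _ n0).trans (h y ((mem_roots (cp_ne θ)).1 hy)))
  simpa [sub_eq_zero] using this

theorem roots_fcl (f : ℂ → ℂ) (θ : Matrix (Fin n) (Fin n) ℂ) :
    (fcl f θ).charpoly.roots = θ.charpoly.roots.map f :=
  (roots_aeval θ _).trans (Multiset.map_congr rfl fun _ hy => (her_eps θ f).eval hy)

theorem det_fcl (f : ℂ → ℂ) (θ : Matrix (Fin n) (Fin n) ℂ) :
    (fcl f θ).det = (θ.charpoly.roots.map f).prod := by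
  rw [det_eq_prod_roots_charpoly, roots_fcl]

theorem trace_fcl (f : ℂ → ℂ) (θ : Matrix (Fin n) (Fin n) ℂ) :
    (fcl f θ).trace = (θ.charpoly.roots.map f).sum := by
  rw [trace_eq_sum_roots_charpoly, roots_fcl]

theorem root_smul {c y : ℂ} (h : θ.charpoly.IsRoot y) : (c • θ).charpoly.IsRoot (c * y) := by
  have := roots_aeval θ (C c * X)
  rw [map_mul, aeval_C, aeval_X, ← Algebra.smul_def] at this
  rw [← mem_roots (cp_ne _), this]
  exact Multiset.mem_map.2 ⟨y, (mem_roots (cp_ne _)).2 h, by simp⟩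

theorem fcl_scale (c : ℂ) (f : ℂ → ℂ) (θ : Matrix (Fin n) (Fin n) ℂ) :
    fcl f (c • θ) = fcl (fun y => f (c * y)) θ := by
  rw [fcl_eq (f := fun y => f (c * y)) (q := (Classical.epsilon (Her n (c • θ).charpoly f)).comp
    (C c * X)) fun y hy => ?_, aeval_comp, map_mul, aeval_C, aeval_X, ← Algebra.smul_def, fcl]
  have := map_dvd (compRingHom (C c * X)) (her_eps (c • θ) f _ (root_smul (c := c) hy))
  simp only [coe_compRingHom_apply, map_pow, sub_comp, X_comp, C_comp] at this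
  rw [C_mul, ← mul_sub] at this
  exact (pow_dvd_pow_of_dvd (dvd_mul_left _ _) n).trans this

theorem fcl_sum {J : Type} [Fintype J] [DecidableEq J] {y : J → ℂ} (hy : Function.Injective y)
    (h : ∀ t, θ.charpoly.IsRoot t → ∃ j, y j = t) (f : ℂ → ℂ) :
    fcl f θ = ∑ j, f (y j) • aeval θ (idp n y j) := by
  rw [fcl_eq (her_sum hy h f), map_sum]
  simp only [map_mul, aeval_C, ← Algebra.smul_def]

theorem idp_eq {J : Type} [Fintype J] [DecidableEq J] {y : J → ℂ} (hy : Function.Injective y)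
    (h : ∀ t, θ.charpoly.IsRoot t → ∃ j, y j = t) (j : J) :
    aeval θ (idp n y j) = fcl (Set.indicator {y j} 1) θ := by
  classical
  rw [fcl_sum hy h, Finset.sum_eq_single j (fun k _ hk => ?_) (by simp)]
  · simp
  · rw [Set.indicator_of_notMem (s := {y j}) (fun e => hk (hy e)), zero_smul]

/-- the idempotents lie in every subring of functions which contains the matrix and scalars -/
theorem idp_mem {T J : Type} [Fintype J] [DecidableEq J]
    (S : Subring (T → Matrix (Fin n) (Fin n) ℂ)) {θ : T → Matrix (Fin n) (Fin n) ℂ}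
    {y : T → J → ℂ} (hθ : θ ∈ S) (h1 : ∀ k, (fun t => y t k • (1 : Matrix (Fin n) (Fin n) ℂ)) ∈ S)
    (j : J) (h2 : ∀ k ≠ j, (fun t => (y t j - y t k)⁻¹ • (1 : Matrix (Fin n) (Fin n) ℂ)) ∈ S) :
    (fun t => aeval (θ t) (idp n (y t) j)) ∈ S := by
  let ev : (T → ℂ[X]) →+* (T → Matrix (Fin n) (Fin n) ℂ) :=
    RingHom.pi fun t => (aeval (θ t)).toRingHom.comp (Pi.evalRingHom _ t)
  have e : ∀ u t, ev u t = aeval (θ t) (u t) := fun _ _ => rfl
  have c : ∀ u : T → ℂ, (fun t => u t • (1 : Matrix (Fin n) (Fin n) ℂ)) ∈ S →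
      (fun t => C (u t)) ∈ S.comap ev := fun u hu => by
    have : ev (fun t => C (u t)) = fun t => u t • 1 := funext fun t => by
      simp [e, Algebra.algebraMap_eq_smul_one]
    rwa [Subring.mem_comap, this]
  have x : (fun _ => X : T → ℂ[X]) ∈ S.comap ev := by
    have : ev (fun _ => X) = θ := funext fun t => by simp [e]
    rwa [Subring.mem_comap, this]
  have : (1 - (1 - (∏ k ∈ Finset.univ.erase j, (fun t => C (y t j - y t k)⁻¹) *
      ((fun _ => X) - fun t => C (y t k))) ^ n) ^ n : T → ℂ[X]) ∈ S.comap ev :=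
    sub_mem (one_mem _) (pow_mem (sub_mem (one_mem _) (pow_mem (prod_mem fun k hk =>
      mul_mem (c _ (h2 k (Finset.ne_of_mem_erase hk))) (sub_mem x (c _ (h1 k)))) n)) n)
  rw [Subring.mem_comap] at this
  refine (congrArg (· ∈ S) (funext fun t => ?_)).mp this
  rw [e]
  simp [idp, Finset.prod_apply]

end Vale.Agent.P275TW
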