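import Vale.Agent.P275PG.Defs
import Vale.Agent.P275MB.Iso
import Vale.Agent.P275IN.Fam

/-!
# P275, block TW: twisted objects, maps between them, families
-/

set_option linter.all false

open scoped Topology Matrix.Norms.Operator ContDiff ComplexConjugate
open Set Filter Metric Matrix
open Vale.Agent.P281Z.Hm Vale.Agent.P275GC Vale.Agent.P275GC.At Vale.Agent.P275MO
open Vale.Agent.P275NA (Fm Cy Mn Mr FrAt db dz fc)
open Vale.Agent.P275KR (Sp)
open Vale.Agent.P275PG Vale.Agent.P275MB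

noncomputable section

namespace Vale.Agent.P275TW

variable {C : Type} [TopologicalSpace C] {n : ℕ} {A : At C} {l : Cy A ℂ} {i j : Fin A.N} {w : ℂ}
  {z z' : Dat C A.N n} {B B' F F' φ : Fm A (Mn n)} {h : Mn n} {x : C}
  {r r' : ℝ} {h1 : 1 < r} {h2 : r ≤ A.R} {Q : Fin n → Fm A ℂ}

/-! ### the trace free part -/

theorem tf_of {X : Mn n} (h : X.trace = 0) : tf X = X := by
  rw [tf, h, mul_zero, zero_smul, sub_zero]

theorem tr_tf (X : Mn n) : (tf X).trace = 0 := by
  rcases Nat.eq_zero_or_pos n with rfl | h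
  · simp [trace]
  · have : (n : ℂ) ≠ 0 := Nat.cast_ne_zero.2 h.ne'
    rw [tf, trace_sub, trace_smul, trace_one, Fintype.card_fin, smul_eq_mul]
    field_simp
    ring

theorem tf_law {X Y g : Mn n} {c : ℂ} (h0 : g.det ≠ 0) (e : X * g = c • (g * Y)) :
    tf X * g = c • (g * tf Y) := by
  have t : X.trace = c * Y.trace := by
    rw [← mul_nonsing_inv_cancel_right g X h0.isUnit, e, smul_mul_assoc, trace_smul,
      trace_mul_cycle, nonsing_inv_mul _ h0.isUnit, one_mul, smul_eq_mul]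
  rw [tf, tf, sub_mul, mul_sub, smul_sub, e, t, smul_mul_assoc, mul_smul_comm, one_mul, mul_one,
    smul_smul, mul_left_comm]

/-- the trace free part as a linear map -/
def tfL (n : ℕ) : Mn n →L[ℂ] Mn n := LinearMap.toContinuousLinearMap
  (LinearMap.id - ((n : ℂ)⁻¹ • traceLinearMap (Fin n) ℂ ℂ).smulRight 1)

theorem tfL_apply (X : Mn n) : tfL n X = tf X := rfl

/-- the twisting form is linear in the coefficients -/
def BqL (a : Fm A (Mn n)) (i : Fin A.N) (w : ℂ) : (Fin n → Fm A ℂ) →ₗ[ℂ] Mn n where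
  toFun Q := Bq Q a i w
  map_add' Q Q' := by
    simp only [Bq, P275PG.pl, ← tfL_apply, Pi.add_apply, add_smul, Finset.sum_add_distrib, map_add]
  map_smul' c Q := by
    simp only [Bq, P275PG.pl, ← tfL_apply, Pi.smul_apply, smul_assoc, ← Finset.smul_sum, map_smul,
      RingHom.id_apply]

theorem Bq_add (Q Q' : Fin n → Fm A ℂ) (a : Fm A (Mn n)) (i : Fin A.N) (w : ℂ) :
    Bq (Q + Q') a i w = Bq Q a i w + Bq Q' a i w := (BqL a i w).map_add Q Q'

theorem Bq_zero (a : Fm A (Mn n)) (i : Fin A.N) (w : ℂ) : Bq 0 a i w = 0 := (BqL a i w).map_zero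

theorem Bq_sum {m : ℕ} (c : Fin m → ℂ) (Q : Fin m → Twd A n x) (a : Fm A (Mn n)) (i : Fin A.N)
    (w : ℂ) : Bq (∑ j, c j • Q j).1 a i w = ∑ j, c j • Bq (Q j).1 a i w := by
  have := map_sum ((BqL a i w).comp (Twd A n x).subtype) (fun j => c j • Q j) Finset.univ
  simp only [map_smul] at this
  exact this

theorem pow_law {X Y g : Mn n} {c : ℂ} (e : X * g = c • (g * Y)) (k : ℕ) :
    X ^ k * g = c ^ k • (g * Y ^ k) := by
  induction k with
  | zero => simp
  | succ k ih =>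
    rw [pow_succ', mul_assoc, ih, mul_smul_comm, ← mul_assoc, e, smul_mul_assoc, smul_smul,
      mul_assoc, ← pow_succ', ← pow_succ]

theorem Bq_nat {a a' : Fm A (Mn n)} {g : Mn n} (h0 : g.det ≠ 0) (e : a' i w * g = g * a i w) :
    Bq Q a' i w * g = g * Bq Q a i w := by
  refine (tf_law (c := 1) h0 ?_).trans (one_smul _ _)
  simp only [P275PG.pl, Finset.sum_mul, Finset.mul_sum, smul_mul_assoc, mul_smul_comm, one_smul,
    pow_law (e.trans (one_smul ℂ _).symm), one_pow]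

/-! ### twisting forms -/

/-- a smooth trace free `(0,1)`-form which is a function of the Higgs field -/
structure Bf (A : At C) (z : Dat C A.N n) (B : Fm A (Mn n)) : Prop where
  sm : A.Sm ∞ B
  tr : ∀ i, ∀ w ∈ ball (0 : ℂ) A.R, (B i w).trace = 0
  law : ∀ i j, ∀ w ∈ A.O i j,
    B i w * z.g i j w = conj (A.d i j w) • (z.g i j w * B j (A.tr i j w))
  com : ∀ i, ∀ w ∈ off A z.x i, B i w * z.a i w = z.a i w * B i w
  inv : ∀ i, ∀ w ∈ ball (0 : ℂ) A.R, ∀ V : Sp n,
    (w ∈ off A z.x i → ∀ v ∈ V, z.a i w *ᵥ v ∈ V) → ∀ v ∈ V, B i w *ᵥ v ∈ V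

theorem twd_res (hQ : Q ∈ Twd A n x) : Q ∈ Twd (A.res r h1 h2) n x := fun k =>
  ⟨(hQ k).1.res, fun i a => (hQ k).2.1 i a.1, fun i j w a => (hQ k).2.2 i j w (res_O.1 a).1⟩

theorem Frm.mono (f : Frm (A.res r h1 h2) B F) (h1' : 1 < r') (h3 : r' ≤ r) :
    Frm (A.res r' h1' (h3.trans h2)) B F :=
  ⟨fun i => (f.sm i).mono (ball_subset_ball h3), fun i w a => f.det i w (ball_subset_ball h3 a),
    fun i w a => f.eq i w (ball_subset_ball h3 a)⟩

theorem law0 (g : Good A l z) (h0 : z.lam = 0) (a : w ∈ A.O i j) (hx : (A.e i).symm w ≠ z.x) :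
    z.a i w * z.g i j w = A.d i j w • (z.g i j w * z.a j (A.tr i j w)) := by
  simpa [h0] using Good.law' g a hx

theorem pl_ev (hQ : Q ∈ Twd A n x) (hw : w ∈ ball (0 : ℂ) A.R) (hx : (A.e i).symm w = x) :
    ∀ᶠ y in 𝓝 w, ∀ a : Fm A (Mn n), P275PG.pl Q a i y = 0 := by
  have s : x ∈ (A.e i).source := hx ▸ map_tgt hw
  have e : A.e i x = w := hx ▸ rinv hw
  filter_upwards [eventually_all.2 fun k => e ▸ (hQ k).2.1 i s] with y b a
  simp [P275PG.pl, b]

theorem Bq_ev (hQ : Q ∈ Twd A n x) (hw : w ∈ ball (0 : ℂ) A.R) (hx : (A.e i).symm w = x) :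
    ∀ᶠ y in 𝓝 w, ∀ a : Fm A (Mn n), Bq Q a i y = 0 :=
  (pl_ev hQ hw hx).mono fun _ b a => by rw [Bq, b a, ← tfL_apply, map_zero]

theorem an_a [T2Space C] (g : Good A l z) (hw : w ∈ off A z.x i) : AnalyticAt ℂ (z.a i) w :=
  (g.hol i).analyticAt ((off_open _ i).mem_nhds hw)

theorem bq_bf [T2Space C] (hQ : Q ∈ Twd A n z.x) (g : Good A l z) (h0 : z.lam = 0) :
    Bf A z (Bq Q z.a) where
  sm i w hw := by
    by_cases hx : (A.e i).symm w = z.x
    · exact (contDiffAt_const.congr_of_eventuallyEq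
        ((Bq_ev hQ hw hx).mono fun _ b => b _)).contDiffWithinAt
    · exact (((tfL n).restrictScalars ℝ).contDiff.contDiffAt.comp w (ContDiffAt.sum fun k _ =>
        cd_smul ((hQ k).1.at hw i) ((P275HK.hol_cd (an_a g ⟨hw, hx⟩)).pow k))).contDiffWithinAt
  tr _ _ _ := tr_tf _
  law i j w hw := by
    by_cases hx : (A.e i).symm w = z.x
    · rw [(Bq_ev hQ hw.1 hx).self_of_nhds,
        (Bq_ev hQ (tr_ball hw) ((symm_tr hw).trans hx)).self_of_nhds]
      simp
    · refine tf_law (g.cc.det.ne hw) ?_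
      simp only [P275PG.pl, Finset.sum_mul, Finset.mul_sum, smul_mul_assoc, mul_smul_comm,
        pow_law (law0 g h0 hw hx), smul_smul, (hQ _).2.2 i j w hw, Finset.smul_sum]
  com i w _ := by
    simp only [Bq, tf, P275PG.pl, sub_mul, mul_sub, Finset.sum_mul, Finset.mul_sum, smul_mul_assoc,
      mul_smul_comm, one_mul, mul_one, ← pow_succ, ← pow_succ']
  inv i w hw V hV v hv := by
    by_cases hx : (A.e i).symm w = z.x
    · rw [(Bq_ev hQ hw hx).self_of_nhds, zero_mulVec]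
      exact V.zero_mem
    · have p : ∀ k : ℕ, (z.a i w ^ k) *ᵥ v ∈ V := fun k => by
        induction k with
        | zero => simpa using hv
        | succ k ih => rw [pow_succ', ← mulVec_mulVec]; exact hV ⟨hw, hx⟩ _ ih
      simp only [Bq, tf, P275PG.pl, sub_mulVec, sum_mulVec, smul_mulVec, one_mulVec]
      exact V.sub_mem (V.sum_mem fun k _ => V.smul_mem _ (p k)) (V.smul_mem _ hv)

/-! ### twisted objects -/

theorem hol3 {u m v : ℂ → Mn n} {b b' : Mn n} (hu : DifferentiableAt ℝ u w) (h0 : (u w).det ≠ 0)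
    (hm : DifferentiableAt ℝ m w) (hv : DifferentiableAt ℝ v w) (eu : db u w + b' * u w = 0)
    (ev : db v w + b * v w = 0) (e : db m w = m w * b - b' * m w) :
    DifferentiableAt ℂ (fun y => (u y)⁻¹ * m y * v y) w := by
  refine hol_of_db (df_mul (df_mul (df_inv hu h0) hm) hv) ?_
  rw [db, wb_mul (df_mul (df_inv hu h0) hm) hv, wb_mul (df_inv hu h0) hm, wb_minv hu h0,
    show wb 1 u w = _ from eq_neg_of_add_eq_zero_left eu,
    show wb 1 v w = _ from eq_neg_of_add_eq_zero_left ev, show wb 1 m w = _ from e]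
  simp only [mul_neg, neg_mul, neg_neg, mul_assoc, mul_nonsing_inv_cancel_left _ _ h0.isUnit,
    mul_sub, sub_mul, add_mul]
  abel

theorem Frm.ne (f : Frm A B F) (hw : w ∈ ball (0 : ℂ) A.R) (i : Fin A.N) : (F i w).det ≠ 0 := by
  rw [f.det i w hw]; exact one_ne_zero

theorem Frm.df (f : Frm A B F) (hw : w ∈ ball (0 : ℂ) A.R) (i : Fin A.N) :
    DifferentiableAt ℝ (F i) w := (f.sm.at hw i).differentiableAt (by simp)

theorem twz_a (g : Good A l z) (f : Frm A B F) (hw : w ∈ off A z.x i) :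
    (twz A z F).a i w = (F i w)⁻¹ * z.a i w * F i w := by
  show tf _ = _
  rw [zero_smul, zero_add, ← mul_assoc, tf_of]
  rw [trace_mul_cycle, mul_nonsing_inv _ (Frm.ne f hw.1 i).isUnit, one_mul, g.tr i w hw]

theorem good_tw [T2Space C] (g : Good A l z) (h0 : z.lam = 0) (b : Bf A z B) (f : Frm A B F) :
    Good A l (twz A z F) where
  cc := ⟨fun i j w a => by
      refine (hol3 (b := conj (A.d i j w) • B j (A.tr i j w)) (v := fun y => F j (A.tr i j y))
        (Frm.df f a.1 i) (Frm.ne f a.1 i)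
        (P275HK.hol_df (g.cc.an a)) ((Frm.df f (tr_ball a) j).comp w
          ((df_tr a).restrictScalars ℝ)) (f.eq i w a.1) ?_ ?_).differentiableWithinAt
      · rw [P275HK.db_comp (Frm.df f (tr_ball a) j) (df_tr a), smul_mul_assoc, At.d, ← smul_add,
          f.eq j _ (tr_ball a), smul_zero]
      · rw [P275HK.db_hol (g.cc.an a), b.law i j w a, mul_smul_comm, sub_self],
    fun i w a => by
      show (F i w)⁻¹ * z.g i i w * F i (A.tr i i w) = 1
      rw [g.cc.one i w a, tr_self a, mul_one, nonsing_inv_mul _ (Frm.ne f a i).isUnit],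
    fun i j k w a c => by
      show (F i w)⁻¹ * z.g i k w * F k (A.tr i k w) = (F i w)⁻¹ * z.g i j w * F j (A.tr i j w) *
        ((F j (A.tr i j w))⁻¹ * z.g j k (A.tr i j w) * F k (A.tr j k (A.tr i j w)))
      simp only [g.cc.mul i j k w a c, tr_tr a, mul_assoc,
        mul_nonsing_inv_cancel_left _ _ (Frm.ne f (tr_ball a) j).isUnit]⟩
  det i j w a := by
    show ((F i w)⁻¹ * z.g i j w * F j (A.tr i j w)).det = _
    rw [Matrix.det_mul, Matrix.det_mul, det_nonsing_inv, f.det i w a.1, f.det j _ (tr_ball a), g.det i j w a]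
    simp
  hol i := DifferentiableOn.congr (fun w a => by
      refine (hol3 (Frm.df f a.1 i) (Frm.ne f a.1 i) (P275HK.hol_df (an_a g a)) (Frm.df f a.1 i)
        (f.eq i w a.1) (f.eq i w a.1) ?_).differentiableWithinAt
      rw [P275HK.db_hol (an_a g a), b.com i w a, sub_self]) fun _ a => twz_a g f a
  tr _ _ _ := tr_tf _
  law i j w a hx := ⟨0, by
    rw [twz_a g f ⟨a.1, hx⟩, twz_a g f (off_tr a hx)]
    show _ * ((F i w)⁻¹ * z.g i j w * F j (A.tr i j w)) + (0 : ℂ) • _ =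
      _ • ((F i w)⁻¹ * z.g i j w * F j (A.tr i j w) * _) + _
    have := congrArg (fun X => (F i w)⁻¹ * X * F j (A.tr i j w)) (law0 g h0 a hx)
    simpa only [zero_smul, add_zero, mul_assoc, mul_smul_comm, smul_mul_assoc,
      mul_nonsing_inv_cancel_left _ _ (Frm.ne f (tr_ball a) j).isUnit,
      mul_nonsing_inv_cancel_left _ _ (Frm.ne f a.1 i).isUnit] using this⟩
  fr i (a : z.x ∈ _) := by
    show ((F i (A.e i z.x))⁻¹ * z.σ i).det ≠ 0
    rw [Matrix.det_mul, det_nonsing_inv, f.det i _ (map_src a)]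
    simpa using g.fr i a
  frc i j (a : z.x ∈ _) (c : z.x ∈ _) := by
    show (F i (A.e i z.x))⁻¹ * z.σ i = (F i (A.e i z.x))⁻¹ * z.g i j (A.e i z.x) *
      F j (A.tr i j (A.e i z.x)) * ((F j (A.e j z.x))⁻¹ * z.σ j)
    rw [tr_e a, g.frc i j a c]
    simp only [mul_assoc, mul_nonsing_inv_cancel_left _ _ (Frm.ne f (map_src c) j).isUnit]
  pole i (a : z.x ∈ _) := by
    have c := (Frm.df f (map_src a) i).continuousAt.tendsto.mono_left
      (nhdsWithin_le_nhds (s := {A.e i z.x}ᶜ))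
    have c' := (df_inv (Frm.df f (map_src a) i) (Frm.ne f (map_src a) i)).continuousAt.tendsto
      |>.mono_left (nhdsWithin_le_nhds (s := {A.e i z.x}ᶜ))
    have t := (c'.mul (g.pole i a)).mul c
    have e : (F i (A.e i z.x))⁻¹ * (z.σ i * z.R * (z.σ i)⁻¹) * F i (A.e i z.x) =
        (twz A z F).σ i * (twz A z F).R * ((twz A z F).σ i)⁻¹ := by
      show _ = (F i (A.e i z.x))⁻¹ * z.σ i * z.R * ((F i (A.e i z.x))⁻¹ * z.σ i)⁻¹
      rw [Matrix.mul_inv_rev, nonsing_inv_nonsing_inv _ (Frm.ne f (map_src a) i).isUnit]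
      simp only [mul_assoc]
    rw [← e]
    refine t.congr' ((off_ev a).mono fun w hw => ?_)
    show _ = (w - A.e i z.x) • (twz A z F).a i w
    rw [twz_a g f hw, mul_smul_comm, smul_mul_assoc]

/-- a smooth map which intertwines the twisted Dolbeault operators -/
structure SIso (A : At C) (z z' : Dat C A.N n) (B B' φ : Fm A (Mn n)) (h : Mn n) : Prop where
  x : z'.x = z.x
  df : ∀ i, ∀ w ∈ ball (0 : ℂ) A.R, DifferentiableAt ℝ (φ i) w
  law : ∀ i j, ∀ w ∈ A.O i j, φ i w * z.g i j w = z'.g i j w * φ j (A.tr i j w)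
  con : ∀ i, ∀ w ∈ off A z.x i, z'.a i w * φ i w = φ i w * z.a i w
  det : ∀ i, ∀ w ∈ ball (0 : ℂ) A.R, (φ i w).det ≠ 0
  fr : ∀ i, z.x ∈ (A.e i).source → φ i (A.e i z.x) * z.σ i = z'.σ i * h
  eq : ∀ i, ∀ w ∈ ball (0 : ℂ) A.R, db (φ i) w = φ i w * B i w - B' i w * φ i w

theorem SIso.iso (s : SIso A z z' B B' φ h) (g : Good A l z) (g' : Good A l z') (f : Frm A B F)
    (f' : Frm A B' F') :
    IsoBy A (twz A z F) (twz A z' F') (fun i w => (F' i w)⁻¹ * φ i w * F i w) h where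
  lam := rfl
  x := s.x
  hol i w a := (hol3 (Frm.df f' a i) (Frm.ne f' a i) (s.df i w a) (Frm.df f a i) (f'.eq i w a)
    (f.eq i w a) (s.eq i w a)).differentiableWithinAt
  law i j w a := by
    show _ * ((F i w)⁻¹ * z.g i j w * F j (A.tr i j w)) =
      (F' i w)⁻¹ * z'.g i j w * F' j (A.tr i j w) * _
    have := congrArg (fun X => (F' i w)⁻¹ * X * F j (A.tr i j w)) (s.law i j w a)
    simpa only [mul_assoc, mul_nonsing_inv_cancel_left _ _ (Frm.ne f' (tr_ball a) j).isUnit,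
      mul_nonsing_inv_cancel_left _ _ (Frm.ne f a.1 i).isUnit] using this
  con i w a := by
    rw [twz_a g f a, twz_a g' f' (s.x ▸ a)]
    show (0 : ℂ) • _ + _ = _
    have := congrArg (fun X => (F' i w)⁻¹ * X * F i w) (s.con i w a)
    simpa only [zero_smul, zero_add, mul_assoc,
      mul_nonsing_inv_cancel_left _ _ (Frm.ne f' a.1 i).isUnit,
      mul_nonsing_inv_cancel_left _ _ (Frm.ne f a.1 i).isUnit] using this
  det i w a := by
    rw [Matrix.det_mul, Matrix.det_mul, det_nonsing_inv, f.det i w a, f'.det i w a]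
    simpa using s.det i w a
  fr i (a : z.x ∈ _) := by
    show (F' i (A.e i z.x))⁻¹ * φ i (A.e i z.x) * F i (A.e i z.x) * ((F i (A.e i z.x))⁻¹ * z.σ i) =
      (F' i (A.e i z'.x))⁻¹ * z'.σ i * h
    simp only [s.x, mul_assoc, mul_nonsing_inv_cancel_left _ _ (Frm.ne f (map_src a) i).isUnit,
      s.fr i a]

/-- isomorphic objects have isomorphic twists -/
theorem siso_of (hQ : Q ∈ Twd A n z.x) (h0 : z.lam = 0) (s : IsoBy A z z' φ h) :
    SIso A z z' (Bq Q z.a) (Bq Q z'.a) φ h :=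
  have c : ∀ i, ∀ w ∈ off A z.x i, z'.a i w * φ i w = φ i w * z.a i w := fun i w a => by
    simpa [h0] using s.con i w a
  ⟨s.x, fun i w a => P275HK.hol_df (s.hol.an a i), s.law, c, s.det, s.fr, fun i w a => by
    rw [P275HK.db_hol (s.hol.an a i)]
    by_cases hx : (A.e i).symm w = z.x
    · simp [(Bq_ev hQ a hx).self_of_nhds]
    · rw [Bq_nat (s.det i w a) (c i w ⟨a, hx⟩), sub_self]⟩

/-- the twist of a twist -/
theorem siso_add {Q' : Fin n → Fm A ℂ} (hQ : Q ∈ Twd A n z.x) (g : Good A l z)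
    (f : Frm A (Bq Q' z.a) F) : SIso A z (twz A z F) (Bq (Q + Q') z.a) (Bq Q (twz A z F).a)
      (fun i w => (F i w)⁻¹) 1 :=
  have c : ∀ i, ∀ w ∈ off A z.x i, (twz A z F).a i w * (F i w)⁻¹ = (F i w)⁻¹ * z.a i w :=
    fun i w a => by rw [twz_a g f a, mul_nonsing_inv_cancel_right _ _ (Frm.ne f a.1 i).isUnit]
  have d : ∀ i, ∀ w ∈ ball (0 : ℂ) A.R, (F i w)⁻¹.det ≠ 0 := fun i w a =>
    (isUnit_nonsing_inv_det _ (Frm.ne f a i).isUnit).ne_zero
  ⟨rfl, fun i w a => df_inv (Frm.df f a i) (Frm.ne f a i), fun i j w a =>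
    (mul_nonsing_inv_cancel_right _ _ (Frm.ne f (tr_ball a) j).isUnit).symm, c, d,
    fun _ _ => (mul_one _).symm, fun i w a => by
    rw [db, wb_minv (Frm.df f a i) (Frm.ne f a i), Bq_add,
      show wb 1 (F i) w = _ from eq_neg_of_add_eq_zero_left (f.eq i w a)]
    have e : Bq Q (twz A z F).a i w * (F i w)⁻¹ = (F i w)⁻¹ * Bq Q z.a i w := by
      by_cases hx : (A.e i).symm w = z.x
      · simp [(Bq_ev hQ a hx).self_of_nhds]
      · exact Bq_nat (d i w a) (c i w ⟨a, hx⟩)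
    rw [e, mul_neg, neg_mul, neg_neg, ← mul_assoc,
      mul_nonsing_inv_cancel_right _ _ (Frm.ne f a i).isUnit, mul_add, add_sub_cancel_left]⟩

/-- frames which are automorphisms -/
theorem iso_aut (g : Good A l z) (h0 : z.lam = 0) (f : Frm A B F)
    (e : ∀ i j, ∀ w ∈ A.O i j, F i w * z.g i j w = z.g i j w * F j (A.tr i j w))
    (c : ∀ i, ∀ w ∈ ball (0 : ℂ) A.R, F i w * z.a i w = z.a i w * F i w)
    (o : ∀ i, z.x ∈ (A.e i).source → F i (A.e i z.x) = 1) :
    IsoBy A (twz A z F) z (fun _ _ => 1) 1 where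
  lam := h0
  x := rfl
  hol _ := differentiableOn_const _
  law i j w a := by
    show 1 * ((F i w)⁻¹ * z.g i j w * F j (A.tr i j w)) = _
    rw [one_mul, mul_one, mul_assoc, ← e i j w a,
      nonsing_inv_mul_cancel_left _ _ (Frm.ne f a.1 i).isUnit]
  con i w a := by
    rw [twz_a g f a, dconst, smul_zero, zero_add, mul_one, one_mul, mul_assoc, ← c i w a.1,
      nonsing_inv_mul_cancel_left _ _ (Frm.ne f a.1 i).isUnit]
  det _ _ _ := by simp
  fr i a := by
    show 1 * ((F i (A.e i z.x))⁻¹ * z.σ i) = _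
    rw [o i a, inv_one, one_mul, one_mul, mul_one]

end Vale.Agent.P275TW
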