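import Vale.Agent.P275TW.Loc

/-!
# P275, block TW: twisting keeps stability
-/

set_option linter.all false

open scoped Topology Matrix.Norms.Operator ContDiff ComplexConjugate
open Set Filter Metric Matrix
open Vale.Agent.P281Z.Hm Vale.Agent.P275GC Vale.Agent.P275GC.At Vale.Agent.P275MO
open Vale.Agent.P275NA (Fm Cy Mn Mr FrAt db dz fc lp degS cvS)
open Vale.Agent.P275KR (Sp rg)
open Vale.Agent.P275PG Vale.Agent.P275MB

noncomputable section

namespace Vale.Agent.P275TW

variable {n k : ℕ} {w : ℂ}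

theorem lp_lognsq {δ τ : ℂ → ℂ} (hδ : ContDiffAt ℝ ∞ δ w) (h0 : δ w ≠ 0)
    (hτ : DifferentiableAt ℝ τ w) (e : ∀ᶠ y in 𝓝 w, db δ y = -τ y * δ y) :
    lp (fun y => Real.log (Complex.normSq (δ y))) w = -2 * (dz τ w).re := by
  have d2 : ContDiffAt ℝ 2 δ w := hδ.of_le ENat.LEInfty.out
  have ne := hδ.continuousAt.eventually_ne h0
  have dα : DifferentiableAt ℝ (fun y => dz δ y * (δ y)⁻¹) w :=
    (P275HK.df_dz d2).mul ((P275HK.c2_df d2).inv h0)
  have e1 : dz δ =ᶠ[𝓝 w] fun y => dz δ y * (δ y)⁻¹ * δ y :=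
    ne.mono fun y a => (inv_mul_cancel_right₀ a _).symm
  have e2 := wd_wb_comm d2 1 1
  rw [wd_congr (g := fun y => -τ y * δ y) e, wb_congr e1, wd_cmul hτ.fun_neg (P275HK.c2_df d2),
    wb_cmul dα (P275HK.c2_df d2), wd_neg, show wb 1 δ w = _ from e.self_of_nhds] at e2
  have e3 : wb 1 (fun y => dz δ y * (δ y)⁻¹) w = -wd 1 τ w := by
    refine mul_right_cancel₀ h0 ?_
    have := e1.self_of_nhds
    simp only at this
    linear_combination -e2 - τ w * this
  rw [P275HK.lp_of (U := fun y => dz δ y * (δ y)⁻¹ - conj (τ y)), db,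
    wb_sub dα (df_conj hτ), e3, wb_conj hτ, Complex.sub_re, Complex.neg_re, Complex.conj_re]
  · ring
  filter_upwards [ne, P275HK.c2_ev d2, e] with y a b c
  have b' := P275HK.c2_df b
  have q : (fun x => ((Complex.normSq (δ x) : ℝ) : ℂ)) = fun x => δ x * conj (δ x) :=
    funext fun x => (Complex.mul_conj _).symm
  have dn : DifferentiableAt ℝ (fun x => Complex.normSq (δ x)) y := by
    have := Complex.reCLM.differentiableAt.comp y (b'.mul (df_conj b'))
    refine this.congr_of_eventuallyEq (Eventually.of_forall fun x => ?_)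
    simp [Complex.mul_conj]
  rw [dz, wd_log dn (Complex.normSq_pos.2 a).ne', q, wd_cmul b' (df_conj b'), wd_conj b',
    show wb 1 δ y = _ from c, ← Complex.mul_conj]
  have : conj (δ y) ≠ 0 := (map_ne_zero _).2 a
  simp only [map_mul, map_neg]
  field_simp
  ring

open Classical in
/-- the trace on an invariant subspace -/
def trS (k : ℕ) (b : Mn n) (V : Sp n) : ℂ :=
  if h : ∃ p : Mr n k × Mn k, Function.Injective p.1.mulVec ∧ rg p.1 = V ∧ b * p.1 = p.1 * p.2
  then trace h.choose.2 else 0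

theorem trS_eq {b : Mn n} {V : Sp n} {u : Mr n k} {c : Mn k} (h1 : Function.Injective u.mulVec)
    (h2 : rg u = V) (h3 : b * u = u * c) : trS k b V = trace c := by
  have h : ∃ p : Mr n k × Mn k, Function.Injective p.1.mulVec ∧ rg p.1 = V ∧ b * p.1 = p.1 * p.2 :=
    ⟨(u, c), h1, h2, h3⟩
  rw [trS, dif_pos h]
  obtain ⟨a1, a2, a3⟩ := h.choose_spec
  obtain ⟨Q, e⟩ := P275DG.ex_fac (s := h.choose.1) (t := u) fun v =>
    (a2.trans h2.symm).le (LinearMap.mem_range_self _ v)
  obtain ⟨L, hL⟩ := P275KR.exists_linv h1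
  have d := (P275DG.det_fac a1 e).isUnit
  have := congrArg (L * ·) a3
  simp only [e, ← Matrix.mul_assoc b, h3, ← Matrix.mul_assoc L, Matrix.mul_assoc u, hL,
    Matrix.one_mul] at this
  rw [← nonsing_inv_mul_cancel_left Q h.choose.2 d, ← this, ← mul_assoc, trace_mul_cycle,
    mul_nonsing_inv _ d, one_mul]

/-- a holomorphic frame of the untwisted subbundle -/
theorem loc_fr {F B : ℂ → Mn n} {V : ℂ → Sp n} {t : ℂ → Mr n k} (ht : FrAt V t w)
    (hB : ContDiffAt ℝ ∞ B w) (hF : ContDiffAt ℝ ∞ F w)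
    (e : ∀ᶠ y in 𝓝 w, (F y).det ≠ 0 ∧ db F y + B y * F y = 0 ∧
      ∀ v ∈ (V y).map (F y).mulVecLin, B y *ᵥ v ∈ (V y).map (F y).mulVecLin) :
    ∃ (s : ℂ → Mr n k) (q : ℂ → Mn k), FrAt (fun y => (V y).map (F y).mulVecLin) s w ∧
      ContDiffAt ℝ ∞ q w ∧ ContDiffAt ℝ ∞ (fun y => trS k (B y) ((V y).map (F y).mulVecLin)) w ∧
      ∀ᶠ y in 𝓝 w, F y * t y = s y * q y ∧ (q y).det ≠ 0 ∧ db (fun x => (q x).det) y =
        -trS k (B y) ((V y).map (F y).mulVecLin) * (q y).det := by
  have inj : ∀ᶠ y in 𝓝 w, Function.Injective (F y * t y).mulVec := by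
    filter_upwards [e, P275DG.ev_inj ht.an ht.inj] with y a b u v c
    exact b (P275HK.inj_of_det a.1 (by simpa only [mulVec_mulVec] using c))
  obtain ⟨L, hL⟩ := P275KR.exists_linv inj.self_of_nhds
  have cu : ContDiffAt ℝ ∞ (fun y => F y * t y) w := P275HK.cd_mul hF (P275HK.hol_cd ht.an)
  have cq : ContDiffAt ℝ ∞ (fun y => L * (F y * t y)) w := P275HK.cd_mul contDiffAt_const cu
  have q0 : (L * (F w * t w)).det ≠ 0 := by rw [hL, det_one]; exact one_ne_zero
  have cs := P275HK.cd_mul cu (P275HK.cd_inv cq q0)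
  have key : ∀ᶠ y in 𝓝 w, (L * (F y * t y)).det ≠ 0 ∧
      rg (F y * t y) = (V y).map (F y).mulVecLin ∧ DifferentiableAt ℝ (fun y => F y * t y) y ∧
      ∃ c : Mn k, B y * (F y * t y) = F y * t y * c ∧
        wb 1 (fun y => F y * t y) y = -(F y * t y * c) := by
    filter_upwards [e, ht.rg, (P275HK.cd_det cq).continuousAt.eventually_ne q0,
      P275HK.c2_ev (hF.of_le ENat.LEInfty.out), ht.an.eventually_analyticAt] with y a b c d d'
    have r : rg (F y * t y) = (V y).map (F y).mulVecLin := by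
      rw [P275KR.rg_mul, show rg (t y) = V y from b]
    obtain ⟨c', hc⟩ := P275DG.ex_fac (s := B y * (F y * t y)) (t := F y * t y) fun v => by
      rw [← mulVec_mulVec]
      exact r.ge (a.2.2 _ (r.le (LinearMap.mem_range_self _ v)))
    refine ⟨c, r, df_mul (P275HK.c2_df d) (P275HK.hol_df d'), c', hc, ?_⟩
    rw [wb_mul (P275HK.c2_df d) (P275HK.hol_df d'), wb_mhol d'.differentiableAt, Matrix.mul_zero,
      add_zero, show wb 1 F y = _ from eq_neg_of_add_eq_zero_left a.2.1, Matrix.neg_mul,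
      Matrix.mul_assoc, hc]
  have Ls : ∀ {y}, (L * (F y * t y)).det ≠ 0 → L * (F y * t y * (L * (F y * t y))⁻¹) = 1 :=
    fun a => by rw [← Matrix.mul_assoc, mul_nonsing_inv _ a.isUnit]
  have sq : ∀ {y}, (L * (F y * t y)).det ≠ 0 →
      F y * t y = F y * t y * (L * (F y * t y))⁻¹ * (L * (F y * t y)) :=
    fun a => by rw [Matrix.mul_assoc _ _⁻¹, nonsing_inv_mul _ a.isUnit, Matrix.mul_one]
  refine ⟨fun y => F y * t y * (L * (F y * t y))⁻¹, fun y => L * (F y * t y),
    ⟨?_, P275KR.inj_of_linv (Ls q0), key.mono fun y a => ?_⟩, cq, ?_, ?_⟩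
  · refine Complex.analyticAt_iff_eventually_differentiableAt.2 (key.mono fun y ⟨a, _, b, c, _, d⟩ => ?_)
    have b' := df_mul (differentiableAt_const L) b
    refine hol_of_db (df_mul b (df_inv b' a)) ?_
    rw [db, wb_mul b (df_inv b' a), wb_minv b' a, wb_const_mul L b, d]
    simp only [Matrix.mul_neg, Matrix.neg_mul, neg_neg, ← Matrix.mul_assoc L (F y * t y)]
    rw [← Matrix.mul_assoc _⁻¹, nonsing_inv_mul _ a.isUnit, Matrix.one_mul, Matrix.mul_assoc,
      neg_add_cancel]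
  · rw [← a.2.1]
    refine le_antisymm ?_ ?_
    · rw [mulVecLin_mul]; exact LinearMap.range_comp_le_range _ _
    · conv_lhs => rw [sq a.1]
      rw [rg, mulVecLin_mul]; exact LinearMap.range_comp_le_range _ _
  · refine (P275HK.cd_trace (P275HK.cd_mul (P275HK.cd_inv cq q0) (P275HK.cd_mul
      (contDiffAt_const (c := L)) (P275HK.cd_mul hB cu)))).congr_of_eventuallyEq ?_
    filter_upwards [key, inj] with y ⟨a, b, _, c, d, _⟩ i
    rw [trS_eq i b d, d, ← Matrix.mul_assoc L (F y * t y), nonsing_inv_mul_cancel_left _ _ a.isUnit]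
  · filter_upwards [key, inj] with y ⟨a, b, b', c, d, d'⟩ i
    refine ⟨sq a, a, ?_⟩
    rw [db, wb_det (df_mul (differentiableAt_const L) b') a, wb_const_mul L b', d', trS_eq i b d,
      Matrix.mul_neg, ← Matrix.mul_assoc L (F y * t y), mul_neg,
      nonsing_inv_mul_cancel_left _ _ a.isUnit, trace_neg, mul_comm]

variable {C : Type} [TopologicalSpace C] {A : At C} {l : Cy A ℂ} {z : Dat C A.N n}
  {B F : Fm A (Mn n)}

theorem stab_tw [T2Space C] (g : Good A l z) (h0 : z.lam = 0) (b : Bf A z B) (f : Frm A B F)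
    (s : Stab A l z) : Stab A l (twz A z F) := by
  intro k S k0 kn c e
  have g' := good_tw g h0 b f
  have iv : ∀ i, ∀ w ∈ off A z.x i, ∀ v ∈ (S i w).map (F i w).mulVecLin,
      z.a i w *ᵥ v ∈ (S i w).map (F i w).mulVecLin := by
    rintro i w hw _ ⟨v, hv, rfl⟩
    obtain ⟨t, ht⟩ := c.fr i w hw.1
    obtain ⟨u, rfl⟩ : v ∈ rg (t w) := by rwa [show rg (t w) = S i w from ht.rg.self_of_nhds]
    refine ⟨_, e i w hw (fun y => t y *ᵥ u) (an_mulVec ht.an analyticAt_const)
      (ht.rg.mono fun y a => a ▸ LinearMap.mem_range_self _ u), ?_⟩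
    rw [twz_a g f hw, show (twz A z F).lam = 0 from rfl, zero_smul, zero_add]
    simp only [mulVecLin_apply, mulVec_mulVec, mul_assoc, Matrix.mul_assoc,
      mul_nonsing_inv_cancel_left _ _ (Frm.ne f hw.1 i).isUnit]
  have ib : ∀ i, ∀ w ∈ ball (0 : ℂ) A.R, ∀ v ∈ (S i w).map (F i w).mulVecLin,
      B i w *ᵥ v ∈ (S i w).map (F i w).mulVecLin := fun i w hw => b.inv i w hw _ (iv i w)
  have lf := fun i w (hw : w ∈ ball (0 : ℂ) A.R) (t : ℂ → Mr n k) (ht : FrAt (S i) t w) =>
    loc_fr ht (b.sm.at hw i) (f.sm.at hw i) (eventually_of_mem (isOpen_ball.mem_nhds hw)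
      fun y a => ⟨Frm.ne f a i, f.eq i y a, ib i y a⟩)
  have c' : P275NA.Sub A z.g k fun i w => (S i w).map (F i w).mulVecLin :=
    ⟨fun i w hw => (c.fr i w hw).elim fun t ht => (lf i w hw t ht).imp fun _ ⟨_, a, _⟩ => a,
      fun i j w p => by
      rw [c.tr i j w p, ← Submodule.map_comp, ← Submodule.map_comp, ← mulVecLin_mul,
        ← mulVecLin_mul]
      show Submodule.map (mulVecLin (F i w * ((F i w)⁻¹ * z.g i j w * F j (A.tr i j w)))) _ = _
      rw [mul_assoc, mul_nonsing_inv_cancel_left _ _ (Frm.ne f p.1 i).isUnit]⟩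
  have m := g.cc.mtM
  have m' : A.MtM ∞ (twz A z F).g fun i w => (F i w)ᴴ * A.mtM z.g i w * F i w :=
    ⟨fun i w hw => (P275HK.cd_mul (P275HK.cd_mul (P275HK.cd_ct (f.sm.at hw i)) (m.sm.at hw i))
      (f.sm.at hw i)).contDiffWithinAt,
      fun i w hw => P275DG.pd_gr (m.pos i w hw) (P275HK.inj_of_det (Frm.ne f hw i)),
      fun i j w p => by
        have a : F i w * (twz A z F).g i j w = z.g i j w * F j (A.tr i j w) := by
          show F i w * ((F i w)⁻¹ * z.g i j w * F j (A.tr i j w)) = _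
          rw [mul_assoc, mul_nonsing_inv_cancel_left _ _ (Frm.ne f p.1 i).isUnit]
        have := congrArg (fun X => Xᴴ * A.mtM z.g i w * X) a
        simp only [m.tr i j w p, conjTranspose_mul, mul_assoc] at this ⊢
        exact this.symm⟩
  let τ : Fm A ℂ := fun i w => trS k (B i w) ((S i w).map (F i w).mulVecLin)
  have sτ : A.Sm ∞ τ := fun i w hw => by
    obtain ⟨t, ht⟩ := c.fr i w hw
    obtain ⟨_, _, -, -, a, -⟩ := lf i w hw t ht
    exact a.contDiffWithinAt
  have fτ : A.F01 τ := fun i j w p => by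
    obtain ⟨t, ht⟩ := c'.fr j _ (tr_ball p)
    have r : rg (t (A.tr i j w)) = _ := ht.rg.self_of_nhds
    obtain ⟨a, ha⟩ := P275DG.ex_fac (s := B j (A.tr i j w) * t (A.tr i j w)) (t := t (A.tr i j w))
      fun v => by
      rw [← mulVec_mulVec]
      exact r.ge (ib j _ (tr_ball p) _ (r.le (LinearMap.mem_range_self _ v)))
    have ht' := P275DG.fr_tr g.cc c' p ht
    refine (trS_eq (c := conj (A.d i j w) • a) ht'.inj ht'.rg.self_of_nhds ?_).trans ?_
    · rw [← Matrix.mul_assoc, b.law i j w p, Matrix.smul_mul, Matrix.mul_assoc, Matrix.mul_assoc,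
        ha, Matrix.mul_smul, Matrix.mul_smul]
    · rw [trace_smul, ← trS_eq ht.inj r ha]
  have cτ : A.Ct fun i => dz (τ i) := (sτ.dz (m := 0) (by simp)).ct
  have q : degS A (twz A z F).g k S = degS A z.g k fun i w => (S i w).map (F i w).mulVecLin := by
    rw [degS, degS, P275DG.int_cvS g'.cc g'.cc.mtM m' c]
    refine congrArg (Real.pi⁻¹ * ·) ?_
    have a := congrArg (fun x : ℂ => 2 * x.re) (fτ.int_dz (sτ.of_le (by simp)))
    simp only [Complex.zero_re, mul_zero] at a
    rw [← int_re cτ.in, ← int_mul] at a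
    have c2 : A.Ct fun i w => 2 * (dz (τ i) w).re := fun i =>
      continuousOn_const.mul (Complex.continuous_re.comp_continuousOn (cτ i))
    rw [← add_zero (A.int (cvS A k (A.mtM z.g) _)), ← a,
      ← int_add (P275DG.sm_cvS m c').ct.in c2.in]
    refine int_congr' fun i w hw => ?_
    obtain ⟨t, ht⟩ := c.fr i w hw
    obtain ⟨s, q, a1, a2, a3, a4⟩ := lf i w hw t ht
    have d0 := a4.self_of_nhds.2.1
    have cl : ContDiffAt ℝ ∞ (fun y => Real.log (Complex.normSq (q y).det)) w := by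
      refine ContDiffAt.log ?_ (Complex.normSq_pos.2 d0).ne'
      refine (P275HK.cd_re ((P275HK.cd_det a2).mul (Complex.conjCLE.contDiff.contDiffAt.comp w
        (P275HK.cd_det a2)))).congr_of_eventuallyEq (Eventually.of_forall fun y => ?_)
      simp [Complex.mul_conj]
    rw [P275DG.cvS_lp m' hw ht, P275DG.cvS_lp m hw a1, P275HK.lp_congr
      (v := fun y => P275DG.ld (P275DG.gr (A.mtM z.g i) s y) + Real.log (Complex.normSq (q y).det)),
      P275HK.lp_add ((P275DG.cd_ldg (S := fun i w => (S i w).map (F i w).mulVecLin) m hw a1).of_le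
        ENat.LEInfty.out) (cl.of_le ENat.LEInfty.out),
      lp_lognsq (P275HK.cd_det a2) d0 (a3.differentiableAt (by simp)) (a4.mono fun _ a => a.2.2)]
    · ring
    filter_upwards [a4, isOpen_ball.mem_nhds hw, P275DG.ev_inj a1.an a1.inj] with y a p i'
    rw [P275DG.gr, P275DG.gr, ← P275DG.ld_cg (P275DG.pd_gr (m.pos i y p) i') a.2.1,
      ← P275DG.gr_fac, ← a.1]
    simp only [conjTranspose_mul, Matrix.mul_assoc]
  rw [q]
  refine s k _ k0 kn c' fun i w hw u _ p => ?_
  rw [h0, zero_smul, zero_add]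
  exact iv i w hw _ p.self_of_nhds

end Vale.Agent.P275TW
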